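import Vale.Agent.P031.Entropy.Core

/-! Totients with a too costly cofactor are rare. -/

open Finset Filter

noncomputable section

namespace P031

/-- Doubly exponential numbers beat the polynomial losses. -/
private lemma viol_params (C x0 : ℝ) : ∃ T0 : ℕ, ∀ T : ℕ, T0 ≤ T →
    625 ≤ T ∧ (T : ℝ) ^ 9 * x0 ≤ Real.exp T ∧
      C * (T : ℝ) ^ 9 * Real.exp (-(eps T * T) / 2) ≤ Real.exp (-Real.sqrt T) := by
  refine ⟨max 625 (max ⌈(Nat.factorial 10 : ℝ) * x0⌉₊ ⌈(10 + |C|) ^ 8⌉₊), fun T hT => ?_⟩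
  simp only [max_le_iff] at hT
  obtain ⟨h1, h2, h3⟩ := hT
  refine ⟨h1, ?_, ?_⟩
  · have hx : (Nat.factorial 10 : ℝ) * x0 ≤ T := Nat.ceil_le.1 h2
    have h := Real.pow_div_factorial_le_exp (x := (T : ℝ)) (Nat.cast_nonneg T) 10
    refine le_trans ?_ h
    rw [le_div_iff₀ (by positivity), pow_succ (T : ℝ) 9, mul_assoc]
    refine mul_le_mul_of_nonneg_left ?_ (by positivity)
    rw [mul_comm]
    exact hx
  · have hT0 : (0 : ℝ) < T := by exact_mod_cast (by omega : 0 < T)
    set s : ℝ := (T : ℝ) ^ ((1 : ℝ) / 8) with hs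
    have hs0 : 0 < s := Real.rpow_pos_of_pos hT0 _
    have hs8 : s ^ 8 = T := by
      rw [hs, ← Real.rpow_natCast, ← Real.rpow_mul hT0.le]
      norm_num
    have hsC : 10 + |C| ≤ s := by
      refine le_of_pow_le_pow_left₀ (by norm_num : 8 ≠ 0) hs0.le ?_
      rw [hs8]
      exact Nat.ceil_le.1 h3
    have hs10 : 10 ≤ s := by linarith [abs_nonneg C]
    have hsqrt : Real.sqrt T = s ^ 4 := by
      rw [← hs8, show s ^ 8 = (s ^ 4) ^ 2 by ring, Real.sqrt_sq (by positivity)]
    have hlog : Real.log T ≤ 8 * s := by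
      have := Real.log_le_rpow_div (x := (T : ℝ)) hT0.le (ε := 1 / 8) (by norm_num)
      rw [← hs] at this
      linarith
    have heps : s ^ 7 / 2 ≤ eps T * T := by
      have h2T : ((T : ℝ) + 1) ^ ((1 : ℝ) / 8) ≤ 2 * s := by
        refine le_of_pow_le_pow_left₀ (by norm_num : 8 ≠ 0) (by positivity) ?_
        rw [← Real.rpow_natCast, ← Real.rpow_mul (by positivity), mul_pow, hs8]
        norm_num
        have : (1 : ℝ) ≤ T := by exact_mod_cast (show 1 ≤ T by omega)
        linarith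
      unfold eps
      rw [show -(1 : ℝ) / 8 = -((1 : ℝ) / 8) by ring, Real.rpow_neg (by positivity),
        inv_mul_eq_div, le_div_iff₀ (by positivity)]
      calc s ^ 7 / 2 * ((T : ℝ) + 1) ^ ((1 : ℝ) / 8) ≤ s ^ 7 / 2 * (2 * s) :=
            mul_le_mul_of_nonneg_left h2T (by positivity)
        _ = T := by rw [← hs8]; ring
    have hp7 : s ^ 4 + 72 * s + |C| ≤ s ^ 7 / 4 := by
      have e3 : (10 : ℝ) ^ 3 ≤ s ^ 3 := pow_le_pow_left₀ (by norm_num) hs10 3
      have e4 : s ≤ s ^ 4 := le_self_pow₀ (by linarith) (by norm_num)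
      have : 10 ^ 3 * s ^ 4 ≤ s ^ 7 := by
        rw [show s ^ 7 = s ^ 3 * s ^ 4 by ring]
        exact mul_le_mul_of_nonneg_right e3 (by positivity)
      linarith
    calc C * (T : ℝ) ^ 9 * Real.exp (-(eps T * T) / 2)
        ≤ Real.exp |C| * Real.exp (9 * Real.log T) * Real.exp (-(eps T * T) / 2) := by
          gcongr
          · exact le_trans (le_abs_self C) (by linarith [Real.add_one_le_exp |C|])
          · rw [← Real.exp_log hT0]
            rw [Real.log_exp, ← Real.exp_nat_mul]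
            norm_num
      _ ≤ _ := by
          rw [← Real.exp_add, ← Real.exp_add, Real.exp_le_exp, hsqrt]
          linarith

/-- Few primes below `x`. -/
private lemma prime_count : ∃ C x0 : ℝ, 0 < C ∧ 2 ≤ x0 ∧ ∀ x : ℝ, x0 ≤ x → ∀ L : Finset ℕ,
    (∀ l ∈ L, l.Prime ∧ (l : ℝ) ≤ x) → (L.card : ℝ) ≤ C * x / Real.log x := by
  obtain ⟨x0, hx0⟩ := eventually_atTop.1 (Chebyshev.eventually_primeCounting_le one_pos)
  refine ⟨Real.log 4 + 1, max x0 2, add_pos (Real.log_pos (by norm_num)) one_pos,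
    le_max_right _ _, fun x hx L hL => le_trans ?_ (hx0 x (le_of_max_le_left hx))⟩
  have hx2 : 2 ≤ x := le_of_max_le_right hx
  rw [← Nat.primesLE_card_eq_primeCounting]
  exact_mod_cast card_le_card fun l hl =>
    Nat.mem_primesLE.2 ⟨Nat.le_floor (hL l hl).2, (hL l hl).1⟩

/-- A normal prime of nearly maximal size, with its largest factor removed, gives a row of
scale `T`. -/
private lemma row_top {T p l : ℕ} (hT : 625 ≤ T) (hp : Normal p) (hl : l.Prime) (hlp : l ∣ p - 1)
    (hp1 : p - 1 ≠ 0) (hlo : (T : ℝ) ≤ cell p + 4 * Real.log T + 1) (hhi : cell p ≤ T + 3) :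
    Row T (T, (p - 1) / l) := by
  intro k hk hkT _
  obtain ⟨m, hm⟩ := hlp
  have hm0 : m ≠ 0 := fun h => hp1 (by rw [hm, h, mul_zero])
  have hdiv : (p - 1) / l = m := by rw [hm, Nat.mul_div_cancel_left _ hl.pos]
  show (k : ℝ) - cutoff T - 2 * dev (T + 3) ≤ omegaSeg ((p - 1) / l) (cutoff T) k
  rw [hdiv]
  have hT0 : (625 : ℝ) ≤ T := by exact_mod_cast hT
  have hdev : 4 * Real.log T + 2 ≤ dev (T + 3) := by
    have hlog := Real.log_le_rpow_div (x := (T : ℝ)) (by linarith) (ε := 1 / 4) (by norm_num)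
    set r : ℝ := (T : ℝ) ^ ((1 : ℝ) / 4) with hr
    have hr5 : 5 ≤ r := by
      rw [hr, show (5 : ℝ) = (625 : ℝ) ^ ((1 : ℝ) / 4) by
        rw [show (625 : ℝ) = 5 ^ (4 : ℝ) by norm_num, ← Real.rpow_mul (by norm_num)]
        norm_num]
      exact Real.rpow_le_rpow (by norm_num) hT0 (by norm_num)
    have hr3 : r ^ 3 ≤ dev (T + 3) := by
      unfold dev
      rw [hr, ← Real.rpow_natCast, ← Real.rpow_mul (by linarith)]
      norm_num
      exact Real.rpow_le_rpow (by linarith) (by linarith) (by norm_num)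
    have h25 : 25 * r ≤ r ^ 3 := by
      rw [show r ^ 3 = r ^ 2 * r by ring]
      exact mul_le_mul_of_nonneg_right (by nlinarith) (by linarith)
    linarith
  have hmono : dev (cell p) ≤ dev (T + 3) := by
    unfold dev
    refine Real.rpow_le_rpow (by positivity) ?_ (by norm_num)
    have : (cell p : ℝ) ≤ ((T + 3 : ℕ) : ℝ) := Nat.cast_le.2 hhi
    linarith
  set k' := min k (cell p + 1) with hk'
  have hgap : (k : ℝ) ≤ k' + (4 * Real.log T + 1) := by
    have hkT' : (k : ℝ) ≤ T := Nat.cast_le.2 hkT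
    have hl0 : 0 ≤ 4 * Real.log T + 1 := by positivity
    rcases min_choice k (cell p + 1) with h | h <;> rw [hk', h] <;> push_cast <;> linarith
  have hm' : (0 : ℝ) ≤ omegaSeg m (cutoff T) k := Nat.cast_nonneg _
  rcases le_or_gt k' (cutoff T) with hS | hS
  · have : (k' : ℝ) ≤ cutoff T := Nat.cast_le.2 hS
    have : 0 ≤ dev (cell p) := Real.rpow_nonneg (by positivity) _
    linarith
  · have hN := (abs_le.1 (hp.1 (cutoff T) k' hS (min_le_right _ _))).1
    rw [hm, omegaSeg_mul' hl.ne_zero hm0] at hN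
    have hone : omegaSeg l (cutoff T) k' ≤ 1 := by
      unfold omegaSeg
      rw [hl.primeFactors, filter_singleton]
      split_ifs <;> simp [hl.factorization_self]
    have hone' : (omegaSeg l (cutoff T) k' : ℝ) ≤ 1 := by exact_mod_cast hone
    have hle : (omegaSeg m (cutoff T) k' : ℝ) ≤ omegaSeg m (cutoff T) k :=
      Nat.cast_le.2 (omegaSeg_mono (min_le_left _ _))
    push_cast at hN
    linarith

/-- The decomposition of a totient with a too costly cofactor. -/
private lemma decompose {T : ℕ} {y : ℝ} (hT : 625 ≤ T) (hy : InRange T y) {v p n : ℕ}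
    (hvy : (v : ℝ) ≤ y) (hp : p.Prime) (hN : Normal p)
    (hlog : Real.log y ≤ (T : ℝ) ^ 4 * Real.log p) (hn : 0 < n) (hc : CellsLe n (T + 2))
    (hex : ¬ Exceptional T n) (htop : (1 + eps T) * T < topG T n)
    (hv : v = (p - 1) * Nat.totient n) :
    ∃ l w : ℕ, l.Prime ∧ Real.log y ≤ (T : ℝ) ^ 9 * Real.log l ∧ Heavy T w ∧ v = l * w := by
  have hT0 : (625 : ℝ) ≤ T := by exact_mod_cast hT
  have hy0 : 0 < y := lt_of_lt_of_le (Real.exp_pos _) hy.1
  have hly : Real.exp T ≤ Real.log y := (Real.le_log_iff_exp_le hy0).2 hy.1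
  have hly' : Real.log y < Real.exp ((T : ℝ) + 2) := (Real.log_lt_iff_lt_exp hy0).2 hy.2
  have hp1 : p - 1 ≠ 0 := Nat.sub_ne_zero_of_lt hp.one_lt
  have hlp : 0 < Real.log (p : ℝ) := Real.log_pos (by exact_mod_cast hp.one_lt)
  set c := cell p with hcdef
  have hclo : Real.log (Real.log (p : ℝ)) < (c : ℝ) + 1 := Nat.lt_floor_add_one _
  have hexp : Real.log (p : ℝ) ≤ Real.exp 1 * Real.exp c := by
    rw [← Real.exp_add, ← Real.exp_log hlp, Real.exp_le_exp]
    linarith
  have hlo : (T : ℝ) ≤ c + 4 * Real.log T + 1 := by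
    have h1 : Real.exp T ≤ Real.exp (4 * Real.log T + (c + 1)) := by
      calc Real.exp (T : ℝ) ≤ (T : ℝ) ^ 4 * Real.log p := hly.trans hlog
        _ = Real.exp (4 * Real.log T) * Real.log p := by
            rw [mul_comm (4 : ℝ), ← Real.rpow_def_of_pos (by linarith)]
            norm_num
        _ ≤ Real.exp (4 * Real.log T) * (Real.exp 1 * Real.exp c) :=
            mul_le_mul_of_nonneg_left hexp (Real.exp_pos _).le
        _ = _ := by rw [← Real.exp_add, ← Real.exp_add]; ring_nf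
    linarith [Real.exp_le_exp.1 h1]
  have hhi : c ≤ T + 2 := by
    have hpv : ((p - 1 : ℕ) : ℝ) ≤ y :=
      le_trans (Nat.cast_le.2 (hv ▸ Nat.le_mul_of_pos_right _ (Nat.totient_pos.2 hn))) hvy
    rw [Nat.cast_sub hp.one_le] at hpv
    have hp2 : (2 : ℝ) ≤ p := by exact_mod_cast hp.two_le
    have hbig : Real.log (p : ℝ) < Real.exp ((T : ℝ) + 2) + 1 := by
      rw [Real.log_lt_iff_lt_exp (by linarith), Real.exp_add]
      have h2 : 2 ≤ Real.exp 1 := by linarith [Real.add_one_le_exp (1 : ℝ)]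
      have h3 : 1 ≤ Real.exp (Real.exp ((T : ℝ) + 2)) := Real.one_le_exp (Real.exp_pos _).le
      have := hy.2
      push_cast at hpv
      nlinarith
    have h3 : Real.log (Real.log (p : ℝ)) < (T : ℝ) + 3 := by
      rw [Real.log_lt_iff_lt_exp hlp]
      have : Real.exp ((T : ℝ) + 2) + 1 ≤ Real.exp ((T : ℝ) + 3) := by
        rw [show (T : ℝ) + 3 = (T : ℝ) + 2 + 1 by ring, Real.exp_add ((T : ℝ) + 2) 1]
        nlinarith [Real.add_one_le_exp (1 : ℝ), Real.add_one_le_exp ((T : ℝ) + 2)]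
      linarith
    have : c < T + 3 := (Nat.floor_lt' (by omega)).2 (by exact_mod_cast h3)
    omega
  set l := maxPrime (p - 1) with hldef
  have hNl : Real.exp c ≤ ((c : ℝ) + 1) ^ 4 * Real.log l := hN.2
  have hlmem : l ∈ (p - 1).primeFactors := by
    have hne : (p - 1).primeFactors.Nonempty := by
      rw [nonempty_iff_ne_empty]
      intro h
      have : l = 0 := by simp [hldef, maxPrime, h]
      rw [this] at hNl
      simp at hNl
      linarith [Real.exp_pos (c : ℝ)]
    obtain ⟨q, hq, hqe⟩ := exists_mem_eq_sup _ hne id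
    rw [hldef, maxPrime, hqe]
    exact hq
  obtain ⟨hl, hldvd, -⟩ := Nat.mem_primeFactors.1 hlmem
  obtain ⟨m, hm⟩ := hldvd
  have hm0 : m ≠ 0 := fun h => hp1 (by rw [hm, h, mul_zero])
  refine ⟨l, m * Nat.totient n, hl, ?_, ?_, by rw [hv, hm, mul_assoc]⟩
  · have hlog0 : 0 ≤ Real.log (l : ℝ) := Real.log_natCast_nonneg _
    have hc1 : ((c : ℝ) + 1) ^ 4 * Real.exp 1 ≤ (T : ℝ) ^ 5 := by
      have h1 : ((c : ℝ) + 1) ^ 4 ≤ (2 * (T : ℝ)) ^ 4 := by
        refine pow_le_pow_left₀ (by positivity) ?_ 4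
        have : (c : ℝ) ≤ ((T + 2 : ℕ) : ℝ) := Nat.cast_le.2 hhi
        push_cast at this
        linarith
      calc ((c : ℝ) + 1) ^ 4 * Real.exp 1 ≤ (2 * (T : ℝ)) ^ 4 * 3 :=
            mul_le_mul h1 (by linarith [Real.exp_one_lt_d9]) (Real.exp_pos _).le (by positivity)
        _ = 48 * (T : ℝ) ^ 4 := by ring
        _ ≤ (T : ℝ) * (T : ℝ) ^ 4 := mul_le_mul_of_nonneg_right (by linarith) (by positivity)
        _ = _ := by ring
    calc Real.log y ≤ (T : ℝ) ^ 4 * Real.log p := hlog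
      _ ≤ (T : ℝ) ^ 4 * (Real.exp 1 * (((c : ℝ) + 1) ^ 4 * Real.log l)) := by
          refine mul_le_mul_of_nonneg_left (hexp.trans ?_) (by positivity)
          exact mul_le_mul_of_nonneg_left hNl (Real.exp_pos _).le
      _ = (T : ℝ) ^ 4 * ((((c : ℝ) + 1) ^ 4 * Real.exp 1) * Real.log l) := by ring
      _ ≤ (T : ℝ) ^ 4 * ((T : ℝ) ^ 5 * Real.log l) :=
          mul_le_mul_of_nonneg_left (mul_le_mul_of_nonneg_right hc1 hlog0) (by positivity)
      _ = _ := by ring
  · have hc3 : CellsLe n (T + 3) := fun q hq => (hc q hq).trans (by omega)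
    have htot : Nat.totient n ≠ 0 := (Nat.totient_pos.2 hn).ne'
    refine ⟨mul_ne_zero hm0 htot, cellsLe_mul hm0 htot ?_ (cellsLe_totient hn.ne' hc3),
      (T, m) ::ₘ highRows T n, ?_, ?_, ?_, ?_⟩
    · intro q hq
      have hqp : q ≤ p := by
        have := Nat.le_of_mem_primeFactors hq
        have := Nat.le_mul_of_pos_left m hl.pos
        omega
      have := cell_mono (Nat.prime_of_mem_primeFactors hq).two_le hqp
      omega
    · rw [Multiset.card_cons]
      exact Nat.succ_le_succ (highRows_card hex)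
    · intro x hx
      rcases Multiset.mem_cons.1 hx with rfl | hx
      · refine ⟨Nat.le_add_right _ _, ?_⟩
        have h := row_top hT hN hl ⟨m, hm⟩ hp1 hlo (by omega)
        rwa [hm, Nat.mul_div_cancel_left _ hl.pos] at h
      · exact highRows_spec hex hc3 x hx
    · rw [Multiset.map_cons, Multiset.prod_cons]
      exact mul_dvd_mul dvd_rfl (highRows_dvd hn.ne')
    · rw [Multiset.map_cons, highRows_fst]
      exact htop

/-- Totients with a too costly cofactor are rare. -/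
theorem viol (hC : CellStatement) : ViolStatement := by
  classical
  obtain ⟨C, x0, hC0, hx0, hcount⟩ := prime_count
  obtain ⟨T1, hT1⟩ := heavy_rare hC
  obtain ⟨T2, hT2⟩ := viol_params C (Real.log x0)
  refine ⟨max T1 T2, fun T hT y hy F hF => ?_⟩
  obtain ⟨hT625, hbig, hpar⟩ := hT2 T (le_of_max_le_right hT)
  have hy0 : 0 < y := lt_of_lt_of_le (Real.exp_pos _) hy.1
  have hly : Real.exp T ≤ Real.log y := (Real.le_log_iff_exp_le hy0).2 hy.1
  have hly0 : 0 < Real.log y := lt_of_lt_of_le (Real.exp_pos _) hly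
  have hT9 : (0 : ℝ) < (T : ℝ) ^ 9 := pow_pos (by exact_mod_cast (by omega : 0 < T)) 9
  have hdec : ∀ v ∈ F, ∃ l w : ℕ,
      l.Prime ∧ Real.log y ≤ (T : ℝ) ^ 9 * Real.log l ∧ Heavy T w ∧ v = l * w := by
    intro v hv
    obtain ⟨hvy, p, n, hp, hN, hlog, hn, hc, hex, htop, hve⟩ := hF v hv
    exact decompose hT625 hy hvy hp hN hlog hn hc hex htop hve
  choose! l w hl hll hw hlw using hdec
  have hfib : ∀ u ∈ F.image w,
      ((F.filter fun v => w v = u).card : ℝ) ≤ y * (C * (T : ℝ) ^ 9 / Real.log y) * (u : ℝ)⁻¹ := by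
    intro u hu
    obtain ⟨v0, hv0, rfl⟩ := mem_image.1 hu
    have hu0 : (0 : ℝ) < (w v0 : ℝ) := by exact_mod_cast Nat.pos_of_ne_zero (hw v0 hv0).1
    have hle : ∀ v ∈ F, w v = w v0 → (l v : ℝ) ≤ y / (w v0 : ℝ) := by
      intro v hv he
      rw [le_div_iff₀ hu0, ← he, ← Nat.cast_mul, ← hlw v hv]
      exact (hF v hv).1
    have hl0 : (0 : ℝ) < (l v0 : ℝ) := by exact_mod_cast (hl v0 hv0).pos
    have hlogl : Real.log y / (T : ℝ) ^ 9 ≤ Real.log (l v0 : ℝ) := by
      rw [div_le_iff₀ hT9, mul_comm]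
      exact hll v0 hv0
    have hlx : Real.log (l v0 : ℝ) ≤ Real.log (y / (w v0 : ℝ)) :=
      Real.log_le_log hl0 (hle v0 hv0 rfl)
    have hx : x0 ≤ y / (w v0 : ℝ) := by
      refine (Real.log_le_log_iff (by linarith) (div_pos hy0 hu0)).1 ?_
      have : Real.log x0 ≤ Real.log y / (T : ℝ) ^ 9 := by
        rw [le_div_iff₀ hT9]
        linarith
      linarith
    have hcard : (F.filter fun v => w v = w v0).card =
        ((F.filter fun v => w v = w v0).image l).card := by
      refine (card_image_of_injOn fun a ha b hb he => ?_).symm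
      simp only [mem_coe, mem_filter] at ha hb
      rw [hlw a ha.1, hlw b hb.1, he, ha.2, hb.2]
    rw [hcard]
    refine (hcount _ hx _ fun q hq => ?_).trans ?_
    · obtain ⟨v, hv, rfl⟩ := mem_image.1 hq
      exact ⟨hl v (mem_filter.1 hv).1, hle v (mem_filter.1 hv).1 (mem_filter.1 hv).2⟩
    · calc C * (y / (w v0 : ℝ)) / Real.log (y / (w v0 : ℝ))
          ≤ C * (y / (w v0 : ℝ)) / (Real.log y / (T : ℝ) ^ 9) :=
            div_le_div_of_nonneg_left (by positivity) (by positivity) (by linarith)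
        _ = _ := by field_simp
  have hheavy : invSum (F.image w) ≤ Real.exp (-(eps T * T) / 2) :=
    hT1 T (le_of_max_le_left hT) _ fun u hu => by
      obtain ⟨v, hv, rfl⟩ := mem_image.1 hu
      exact hw v hv
  calc (F.card : ℝ) = ∑ u ∈ F.image w, ((F.filter fun v => w v = u).card : ℝ) := by
        exact_mod_cast card_eq_sum_card_image w F
    _ ≤ ∑ u ∈ F.image w, y * (C * (T : ℝ) ^ 9 / Real.log y) * (u : ℝ)⁻¹ := sum_le_sum hfib
    _ = y * (C * (T : ℝ) ^ 9 / Real.log y) * invSum (F.image w) := by rw [invSum, mul_sum]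
    _ ≤ y * (C * (T : ℝ) ^ 9 / Real.log y) * Real.exp (-(eps T * T) / 2) :=
        mul_le_mul_of_nonneg_left hheavy (by positivity)
    _ = y / Real.log y * (C * (T : ℝ) ^ 9 * Real.exp (-(eps T * T) / 2)) := by ring
    _ ≤ _ := mul_le_mul_of_nonneg_left hpar (by positivity)

end P031
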