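import Vale.Agent.P031.Entropy.Core

/-! Values with a bad top scale are rare. -/

noncomputable section

namespace P031

theorem heavy_of_costly {s n : ℕ} (hn : 0 < n) (hc : CellsLe n s) (he : ¬ Exceptional s n)
    (hg : (1 + eps s) * s < levG s n) : Heavy s (Nat.totient n) := by
  have hc' : CellsLe n (s + 3) := fun p hp => (hc p hp).trans (by omega)
  exact ⟨(Nat.totient_pos.2 hn).ne', cellsLe_totient hn.ne' hc', highRows s n,
    (highRows_card he).trans (Nat.le_succ _), highRows_spec he hc', highRows_dvd hn.ne',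
    by rw [highRows_fst]; exact hg⟩

/-- Values with a bad top scale are rare. -/
theorem bad (hC : CellStatement) (hE : ExceptionalStatement) : BadStatement := by
  classical
  obtain ⟨T1, hT1⟩ := heavy_rare hC
  obtain ⟨T2, hT2⟩ := hE
  have hbig : ∀ a : ℝ, 0 < a → ∀ᶠ T : ℕ in Filter.atTop, (8 : ℝ) ≤ (T : ℝ) ^ a := fun a ha =>
    ((tendsto_rpow_atTop ha).comp tendsto_natCast_atTop_atTop).eventually_ge_atTop 8
  obtain ⟨T3, hT3⟩ := Filter.eventually_atTop.1
    ((Filter.eventually_ge_atTop 1).and (hbig (1 / 48) (by norm_num)))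
  refine ⟨max T1 (max T2 T3), fun s hs F hF => ?_⟩
  simp only [max_le_iff] at hs
  obtain ⟨hs1, hu⟩ := hT3 s hs.2.2
  set A := F.filter fun v => ∃ n, 0 < n ∧ CellsLe n (s + 2) ∧ Exceptional s n ∧ Nat.totient n = v
  set B := F \ A
  have hA : invSum A ≤ Real.exp (-(s : ℝ) ^ ((1 : ℝ) / 12)) := hT2 s hs.2.1 A fun v hv => by
    obtain ⟨-, n, h1, h2, h3, h4⟩ := Finset.mem_filter.1 hv
    exact ⟨n, ⟨h1, h2, h3⟩, h4⟩
  have hB : invSum B ≤ Real.exp (-(eps s * s) / 2) := hT1 s hs.1 B fun v hv => by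
    obtain ⟨hvF, hvA⟩ := Finset.mem_sdiff.1 hv
    obtain ⟨n, ⟨hn, hbad⟩, hnv⟩ := hF v hvF
    have he : ¬ Exceptional s n := fun he => hvA (Finset.mem_filter.2
      ⟨hvF, n, hn, fun p hp => (hbad.1.1 p hp).trans (by omega), he, hnv⟩)
    exact hnv ▸ heavy_of_costly hn hbad.1.1 he (hbad.2.resolve_left he)
  have hF' : invSum F ≤ invSum A + invSum B :=
    (invSum_mono (fun v hv => by
      by_cases h : v ∈ A
      · exact Finset.mem_union_left _ h
      · exact Finset.mem_union_right _ (Finset.mem_sdiff.2 ⟨hv, h⟩))).trans (invSum_union_le A B)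
  set x := (s : ℝ) ^ ((1 : ℝ) / 16) with hx
  have hs0 : (1 : ℝ) ≤ s := by exact_mod_cast hs1
  have hx1 : 1 ≤ x := Real.one_le_rpow hs0 (by norm_num)
  have h12 : 8 * x ≤ (s : ℝ) ^ ((1 : ℝ) / 12) := by
    rw [show (1 : ℝ) / 12 = 1 / 48 + 1 / 16 by norm_num, Real.rpow_add (by linarith)]
    exact mul_le_mul_of_nonneg_right hu (by positivity)
  have h78 : (s : ℝ) ^ ((1 : ℝ) / 12) ≤ (s : ℝ) ^ (7 / 8 : ℝ) :=
    Real.rpow_le_rpow_of_exponent_le hs0 (by norm_num)
  have heps := le_two_eps_mul hs1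
  have e1 : Real.exp (-(s : ℝ) ^ ((1 : ℝ) / 12)) ≤ Real.exp (-(x + 1)) :=
    Real.exp_le_exp.2 (by linarith)
  have e2 : Real.exp (-(eps s * s) / 2) ≤ Real.exp (-(x + 1)) :=
    Real.exp_le_exp.2 (by linarith)
  have h1 : Real.exp (-(1 : ℝ)) ≤ 1 / 2 := by
    rw [Real.exp_neg, one_div]
    exact inv_anti₀ two_pos (by linarith [Real.add_one_le_exp (1 : ℝ)])
  have e3 : Real.exp (-(x + 1)) ≤ Real.exp (-x) * (1 / 2) := by
    rw [show -(x + 1) = -x + -(1 : ℝ) by ring, Real.exp_add]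
    exact mul_le_mul_of_nonneg_left h1 (Real.exp_pos _).le
  linarith

end P031
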