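import Vale.Agent.P031.Statements
import Vale.Agent.P031.Tools

/-!
The entropy bound: values that receive the expected number of prime factors from every row
of a costly profile are rare.
-/

open Finset

noncomputable section

namespace P031

/-- A row `(t, q)`: the part of `q` on the scales from the cutoff up to `min (t + 1) T` is
almost as large as expected. -/
def Row (T : ℕ) (x : ℕ × ℕ) : Prop :=
  ∀ k : ℕ, cutoff T ≤ k → k ≤ T → k ≤ x.1 + 1 →
    (k : ℝ) - cutoff T - 2 * dev (T + 3) ≤ omegaSeg x.2 (cutoff T) k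

/-- A number that carries all rows of a costly profile. -/
def Heavy (T v : ℕ) : Prop :=
  v ≠ 0 ∧ CellsLe v (T + 3) ∧ ∃ Q : Multiset (ℕ × ℕ),
    Multiset.card Q ≤ Kmax T + 1 ∧ (∀ x ∈ Q, x.1 ≤ T + 3 ∧ Row T x) ∧
    (Q.map Prod.snd).prod ∣ v ∧
    (1 + eps T) * T < gsum (Q.map Prod.fst) (cutoff T) T

/-- The rows given by the high prime factors of `n`. -/
def highRows (T n : ℕ) : Multiset (ℕ × ℕ) :=
  (high n (cutoff T)).val.map fun p => (cell p, p - 1)

theorem highRows_fst (T n : ℕ) : (highRows T n).map Prod.fst = profile n (cutoff T) := by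
  simp [highRows, profile, Multiset.map_map]

theorem highRows_card {T n : ℕ} (h : ¬ Exceptional T n) :
    Multiset.card (highRows T n) ≤ Kmax T := by
  simp only [Exceptional, not_or, not_lt] at h
  simpa [highRows] using h.2.1

theorem dev_nonneg (t : ℕ) : 0 ≤ dev t := Real.rpow_nonneg (by positivity) _

theorem dev_mono {a b : ℕ} (h : a ≤ b) : dev a ≤ dev b := by
  have h' : (a : ℝ) ≤ b := by exact_mod_cast h
  exact Real.rpow_le_rpow (by positivity) (by linarith) (by norm_num)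

theorem highRows_spec {T n : ℕ} (h : ¬ Exceptional T n) (hc : CellsLe n (T + 3)) :
    ∀ x ∈ highRows T n, x.1 ≤ T + 3 ∧ Row T x := by
  intro x hx
  obtain ⟨p, hp, rfl⟩ := Multiset.mem_map.1 hx
  have hp' : p ∈ high n (cutoff T) := hp
  have hcell := hc p (Finset.mem_filter.1 hp').1
  have hN : Normal p := by
    by_contra hN
    exact h (Or.inl ⟨p, hp', Or.inr hN⟩)
  refine ⟨hcell, fun k hk _ hk' => ?_⟩
  dsimp only at hk' ⊢
  have hd := dev_mono hcell
  have hd0 := dev_nonneg (T + 3)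
  rcases eq_or_lt_of_le hk with rfl | hlt
  · have : (0 : ℝ) ≤ omegaSeg (p - 1) (cutoff T) (cutoff T) := Nat.cast_nonneg _
    linarith
  · linarith [(abs_le.1 (hN.1 _ k hlt hk')).1]

theorem highRows_dvd {T n : ℕ} (hn : n ≠ 0) :
    ((highRows T n).map Prod.snd).prod ∣ Nat.totient n := by
  rw [highRows, Multiset.map_map]
  simp only [Function.comp_def]
  change (∏ p ∈ high n (cutoff T), (p - 1)) ∣ _
  rw [Nat.totient_eq_prod_factorization hn, Finsupp.prod, Nat.support_factorization]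
  exact (Finset.prod_dvd_prod_of_subset _ _ _ (Finset.filter_subset _ _)).trans
    (Finset.prod_dvd_prod_of_dvd _ _ fun p _ => dvd_mul_left _ _)

theorem cellsLe_totient {n t : ℕ} (hn : n ≠ 0) (h : CellsLe n t) :
    CellsLe (Nat.totient n) t := by
  intro p hp
  have hpp := Nat.prime_of_mem_primeFactors hp
  have hd := Nat.dvd_of_mem_primeFactors hp
  rw [Nat.totient_eq_prod_factorization hn, Finsupp.prod, Nat.support_factorization] at hd
  obtain ⟨q, hq, hpq⟩ := (hpp.prime.dvd_finsetProd_iff _).1 hd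
  have hqp := Nat.prime_of_mem_primeFactors hq
  rcases hpp.dvd_mul.1 hpq with h1 | h1
  · rw [(Nat.prime_dvd_prime_iff_eq hpp hqp).1 (hpp.dvd_of_dvd_pow h1)]
    exact h q hq
  · have := Nat.le_of_dvd (by have := hqp.two_le; omega) h1
    exact (cell_mono hpp.two_le (by omega)).trans (h q hq)

theorem cellsLe_mul {a b t : ℕ} (ha : a ≠ 0) (hb : b ≠ 0) (h : CellsLe a t) (h' : CellsLe b t) :
    CellsLe (a * b) t := by
  intro p hp
  rw [Nat.primeFactors_mul ha hb, Finset.mem_union] at hp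
  exact hp.elim (h p) (h' p)

theorem omegaSeg_eq_sum' (n u w : ℕ) :
    omegaSeg n u w = n.factorization.sum fun p e => if u ≤ cell p ∧ cell p < w then e else 0 := by
  rw [omegaSeg, Finsupp.sum, Nat.support_factorization, Finset.sum_filter]

theorem omegaSeg_mul' {a b : ℕ} (ha : a ≠ 0) (hb : b ≠ 0) (u w : ℕ) :
    omegaSeg (a * b) u w = omegaSeg a u w + omegaSeg b u w := by
  simp only [omegaSeg_eq_sum', Nat.factorization_mul ha hb]
  exact Finsupp.sum_add_index' (fun p => by simp) fun p e e' => by split_ifs <;> simp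

theorem omegaSeg_mono {n u w w' : ℕ} (h : w ≤ w') : omegaSeg n u w ≤ omegaSeg n u w' :=
  Finset.sum_le_sum_of_subset fun p hp => by
    simp only [Finset.mem_filter] at hp ⊢
    exact ⟨hp.1, hp.2.1, by omega⟩

theorem omegaSeg_eq_sum_cells (n S k : ℕ) :
    omegaSeg n S k = ∑ j ∈ Ico S k, omegaSeg n j (j + 1) := by
  unfold omegaSeg
  rw [← Finset.sum_fiberwise_of_maps_to (g := cell) (t := Ico S k)
    fun p hp => Finset.mem_Ico.2 (Finset.mem_filter.1 hp).2]
  refine Finset.sum_congr rfl fun j hj => Finset.sum_congr ?_ fun _ _ => rfl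
  rw [Finset.mem_Ico] at hj
  ext p
  simp only [Finset.mem_filter]
  constructor
  · rintro ⟨⟨h1, -⟩, h3⟩
    exact ⟨h1, by omega, by omega⟩
  · rintro ⟨h1, h2, h3⟩
    exact ⟨⟨h1, by omega, by omega⟩, by omega⟩

/-- Abel summation against a decreasing weight. -/
theorem abel_lower (w a : ℕ → ℝ) (hw : Antitone w) (hw0 : ∀ j, 0 ≤ w j) {S M : ℕ} (hSM : S ≤ M)
    {D W : ℝ} (hD : 0 ≤ D) (hW : w S ≤ W)
    (h : ∀ k, S ≤ k → k ≤ M → ((k : ℝ) - S) - D ≤ ∑ j ∈ Ico S k, a j) :
    ∑ j ∈ Ico S M, w j - W * D ≤ ∑ j ∈ Ico S M, w j * a j := by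
  have key : ∀ k, S ≤ k → k ≤ M → w k * (∑ j ∈ Ico S k, (a j - 1) + D) - W * D ≤
      ∑ j ∈ Ico S k, w j * (a j - 1) := by
    intro k hk
    induction k, hk using Nat.le_induction with
    | base =>
      intro _
      simp only [Ico_self, sum_empty, zero_add]
      nlinarith
    | succ k hk ih =>
      intro hk'
      have ih := ih (by omega)
      rw [sum_Ico_succ_top hk, sum_Ico_succ_top hk]
      have h0 : 0 ≤ ∑ j ∈ Ico S k, (a j - 1) + (a k - 1) + D := by
        have := h (k + 1) (by omega) hk'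
        rw [sum_Ico_succ_top hk] at this
        rw [sum_sub_distrib, sum_const, Nat.card_Ico, nsmul_eq_mul, mul_one, Nat.cast_sub hk]
        push_cast at this
        linarith
      nlinarith [hw (Nat.le_succ k), mul_le_mul_of_nonneg_right (hw (Nat.le_succ k)) h0]
  have h0 : 0 ≤ ∑ j ∈ Ico S M, (a j - 1) + D := by
    have := h M hSM le_rfl
    rw [sum_sub_distrib, sum_const, Nat.card_Ico, nsmul_eq_mul, mul_one, Nat.cast_sub hSM]
    linarith
  have := key M hSM le_rfl
  simp only [mul_sub, mul_one, sum_sub_distrib] at this h0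
  nlinarith [hw0 M, mul_nonneg (hw0 M) h0]

/-- The weight of scale `j`. -/
def rowWeight (R : Multiset ℕ) (j : ℕ) : ℝ := max (rows R j : ℝ) 1

/-- Its logarithm, summed over the prime factors of scale in `[S, T)`. -/
def mass (R : Multiset ℕ) (S T n : ℕ) : ℝ :=
  ∑ j ∈ Ico S T, Real.log (rowWeight R j) * omegaSeg n j (j + 1)

theorem one_le_rowWeight (R : Multiset ℕ) (j : ℕ) : 1 ≤ rowWeight R j := le_max_right _ _

theorem rowWeight_le (R : Multiset ℕ) (j : ℕ) :
    rowWeight R j ≤ (Multiset.card R : ℝ) + 1 := by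
  have h : (rows R j : ℝ) ≤ Multiset.card R := by exact_mod_cast Multiset.countP_le_card _ _
  exact max_le (by linarith) (by linarith [Nat.cast_nonneg (α := ℝ) (Multiset.card R)])

theorem rowWeight_anti (R : Multiset ℕ) : Antitone (rowWeight R) := by
  intro i j h
  refine max_le_max ?_ le_rfl
  have : rows R j ≤ rows R i := by
    simp only [rows, Multiset.countP_eq_card_filter]
    exact Multiset.card_le_card (Multiset.monotone_filter_right R fun t ht => by omega)
  exact_mod_cast this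

theorem mass_nonneg (R : Multiset ℕ) (S T n : ℕ) : 0 ≤ mass R S T n :=
  Finset.sum_nonneg fun j _ =>
    mul_nonneg (Real.log_nonneg (one_le_rowWeight R j)) (Nat.cast_nonneg _)

theorem mass_mul (R : Multiset ℕ) (S T : ℕ) {a b : ℕ} (ha : a ≠ 0) (hb : b ≠ 0) :
    mass R S T (a * b) = mass R S T a + mass R S T b := by
  simp only [mass, omegaSeg_mul' ha hb, Nat.cast_add, mul_add, Finset.sum_add_distrib]

theorem mass_prod_ge (R : Multiset ℕ) (S T : ℕ) : ∀ Q : Multiset ℕ, Q.prod ≠ 0 →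
    (Q.map (mass R S T)).sum ≤ mass R S T Q.prod := by
  intro Q
  induction Q using Multiset.induction with
  | empty => intro _; simpa using mass_nonneg R S T 1
  | cons q Q ih =>
    intro h
    rw [Multiset.prod_cons] at h ⊢
    rw [Multiset.map_cons, Multiset.sum_cons, mass_mul R S T (left_ne_zero_of_mul h)
      (right_ne_zero_of_mul h)]
    linarith [ih (right_ne_zero_of_mul h)]

theorem sum_rows_eq (w : ℕ → ℝ) (S T : ℕ) (R : Multiset ℕ) :
    (R.map fun t => ∑ j ∈ Ico S T, if j ≤ t then w j else 0).sum =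
      ∑ j ∈ Ico S T, (rows R j : ℝ) * w j := by
  induction R using Multiset.induction with
  | empty => simp [rows]
  | cons t R ih =>
    rw [Multiset.map_cons, Multiset.sum_cons, ih, ← Finset.sum_add_distrib]
    refine Finset.sum_congr rfl fun j _ => ?_
    simp only [rows, Multiset.countP_cons]
    split_ifs <;> push_cast <;> ring

theorem gfun_identity (R : Multiset ℕ) (j : ℕ) :
    (rows R j : ℝ) * Real.log (rowWeight R j) = rowWeight R j + gfun (rows R j) - 1 := by
  unfold gfun rowWeight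
  by_cases h : rows R j ≤ 1
  · rw [if_pos h, max_eq_right (by exact_mod_cast h)]
    simp
  · rw [if_neg h, max_eq_left (by exact_mod_cast (by omega : 1 ≤ rows R j))]
    ring

theorem mass_ge {T v : ℕ} (Q : Multiset (ℕ × ℕ)) (hS : cutoff T ≤ T) (hv : v ≠ 0)
    (hrow : ∀ x ∈ Q, Row T x) (hd : (Q.map Prod.snd).prod ∣ v) :
    ∑ j ∈ Ico (cutoff T) T, rowWeight (Q.map Prod.fst) j + gsum (Q.map Prod.fst) (cutoff T) T
      - ((T : ℝ) - cutoff T)
      - Multiset.card Q * (Real.log ((Multiset.card Q : ℝ) + 1) * (2 * dev (T + 3))) ≤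
      mass (Q.map Prod.fst) (cutoff T) T v := by
  set R := Q.map Prod.fst with hR
  set S := cutoff T with hSdef
  set W := Real.log ((Multiset.card Q : ℝ) + 1) * (2 * dev (T + 3)) with hWdef
  set w := fun j => Real.log (rowWeight R j) with hwdef
  have hw0 : ∀ j, 0 ≤ w j := fun j => Real.log_nonneg (one_le_rowWeight R j)
  have hwanti : Antitone w := fun i j h =>
    Real.log_le_log (by linarith [one_le_rowWeight R j]) (rowWeight_anti R h)
  have hD : 0 ≤ 2 * dev (T + 3) := by linarith [dev_nonneg (T + 3)]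
  have hwS : w S ≤ Real.log ((Multiset.card Q : ℝ) + 1) := by
    refine Real.log_le_log (by linarith [one_le_rowWeight R S]) ((rowWeight_le R S).trans_eq ?_)
    rw [hR, Multiset.card_map]
  have hW0 : 0 ≤ W := mul_nonneg ((hw0 S).trans hwS) hD
  have hone : ∀ x ∈ Q, (∑ j ∈ Ico S T, if j ≤ x.1 then w j else 0) - W ≤ mass R S T x.2 := by
    intro x hx
    by_cases hxS : x.1 + 1 ≤ S
    · have : (∑ j ∈ Ico S T, if j ≤ x.1 then w j else 0) = 0 :=
        Finset.sum_eq_zero fun j hj => if_neg (by rw [Finset.mem_Ico] at hj; omega)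
      linarith [mass_nonneg R S T x.2]
    · set M := min (x.1 + 1) T
      have hM : S ≤ M := le_min (by omega) hS
      have h1 := abel_lower w (fun j => (omegaSeg x.2 j (j + 1) : ℝ)) hwanti hw0 hM hD hwS
        fun k hk hk' => by
          have := hrow x hx k hk (hk'.trans (min_le_right _ _)) (hk'.trans (min_le_left _ _))
          rw [omegaSeg_eq_sum_cells] at this
          push_cast at this
          exact this
      have h2 : (∑ j ∈ Ico S T, if j ≤ x.1 then w j else 0) = ∑ j ∈ Ico S M, w j := by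
        rw [← Finset.sum_filter]
        refine Finset.sum_congr ?_ fun _ _ => rfl
        ext j
        simp only [Finset.mem_filter, Finset.mem_Ico, M]
        omega
      have h3 : ∑ j ∈ Ico S M, w j * (omegaSeg x.2 j (j + 1) : ℝ) ≤ mass R S T x.2 :=
        Finset.sum_le_sum_of_subset_of_nonneg (Finset.Ico_subset_Ico le_rfl (min_le_right _ _))
          fun j _ _ => mul_nonneg (hw0 j) (Nat.cast_nonneg _)
      linarith
  have hne : (Q.map Prod.snd).prod ≠ 0 := fun h => hv (Nat.eq_zero_of_zero_dvd (h ▸ hd))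
  have hmass : mass R S T (Q.map Prod.snd).prod ≤ mass R S T v := by
    obtain ⟨c, rfl⟩ := hd
    rw [mass_mul R S T hne (right_ne_zero_of_mul hv)]
    linarith [mass_nonneg R S T c]
  have hsum := (Multiset.sum_map_le_sum_map _ _ hone).trans
    ((le_of_eq (by rw [Multiset.map_map]; rfl)).trans ((mass_prod_ge R S T _ hne).trans hmass))
  rw [Multiset.sum_map_sub, Multiset.map_const', Multiset.sum_replicate, nsmul_eq_mul] at hsum
  have h4 : (Q.map fun x => ∑ j ∈ Ico S T, if j ≤ x.1 then w j else 0).sum =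
      ∑ j ∈ Ico S T, rowWeight R j + gsum R S T - ((T : ℝ) - S) := by
    have := sum_rows_eq w S T R
    rw [hR, Multiset.map_map] at this
    refine this.trans ?_
    rw [← hR]
    simp only [hwdef, gfun_identity, Finset.sum_sub_distrib, Finset.sum_add_distrib, gsum,
      Finset.sum_const, Nat.card_Ico, nsmul_eq_mul, mul_one, Nat.cast_sub hS]
  linarith

/-! ### Counting profiles -/

/-- Multisets of at most `k` elements of `A`. -/
def profiles (A : Finset ℕ) : ℕ → Finset (Multiset ℕ)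
  | 0 => {0}
  | k + 1 => profiles A k ∪ (A ×ˢ profiles A k).image fun x => x.1 ::ₘ x.2

theorem card_profiles (A : Finset ℕ) : ∀ k, (profiles A k).card ≤ (A.card + 1) ^ k
  | 0 => by simp [profiles]
  | k + 1 => by
    rw [profiles]
    refine (Finset.card_union_le _ _).trans ?_
    have h1 := card_profiles A k
    have h2 : ((A ×ˢ profiles A k).image fun x => x.1 ::ₘ x.2).card ≤ A.card * (profiles A k).card :=
      Finset.card_image_le.trans_eq (Finset.card_product _ _)
    rw [pow_succ]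
    nlinarith

theorem zero_mem_profiles (A : Finset ℕ) : ∀ k, (0 : Multiset ℕ) ∈ profiles A k
  | 0 => by simp [profiles]
  | k + 1 => Finset.mem_union_left _ (zero_mem_profiles A k)

theorem mem_profiles {A : Finset ℕ} : ∀ {k : ℕ} (R : Multiset ℕ), Multiset.card R ≤ k →
    (∀ t ∈ R, t ∈ A) → R ∈ profiles A k := by
  intro k
  induction k with
  | zero =>
    intro R h _
    rw [Multiset.card_eq_zero.1 (Nat.le_zero.1 h)]
    exact zero_mem_profiles A 0
  | succ k ih =>
    intro R h hA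
    rcases R.empty_or_exists_mem with rfl | ⟨t, ht⟩
    · exact zero_mem_profiles A _
    · obtain ⟨R', rfl⟩ := Multiset.exists_cons_of_mem ht
      rw [Multiset.card_cons] at h
      refine Finset.mem_union_right _ (Finset.mem_image.2 ⟨(t, R'), Finset.mem_product.2
        ⟨hA t ht, ih R' (by omega) fun u hu => hA u (Multiset.mem_cons_of_mem hu)⟩, rfl⟩)

/-! ### The weighted sum -/

/-- The multiplicative weight of a prime. -/
def primeWeight (R : Multiset ℕ) (S T p : ℕ) : ℝ :=
  if cell p ∈ Ico S T then rowWeight R (cell p) else 1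

theorem prod_primeWeight (R : Multiset ℕ) (S T v : ℕ) :
    ∏ p ∈ v.primeFactors, primeWeight R S T p ^ v.factorization p =
      Real.exp (mass R S T v) := by
  have hpos : ∀ p, 0 < primeWeight R S T p := fun p => by
    unfold primeWeight
    split_ifs
    · linarith [one_le_rowWeight R (cell p)]
    · norm_num
  have h : mass R S T v =
      ∑ p ∈ v.primeFactors, (v.factorization p : ℝ) * Real.log (primeWeight R S T p) := by
    have h1 : ∑ p ∈ v.primeFactors, (v.factorization p : ℝ) * Real.log (primeWeight R S T p) =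
        ∑ p ∈ v.primeFactors.filter (fun p => cell p ∈ Ico S T),
          (v.factorization p : ℝ) * Real.log (rowWeight R (cell p)) := by
      rw [Finset.sum_filter]
      refine Finset.sum_congr rfl fun p _ => ?_
      unfold primeWeight
      split_ifs <;> simp
    rw [h1, ← Finset.sum_fiberwise_of_maps_to (g := cell) (t := Ico S T)
      fun p hp => (Finset.mem_filter.1 hp).2]
    refine Finset.sum_congr rfl fun j hj => ?_
    rw [omegaSeg, Nat.cast_sum, Finset.mul_sum]
    refine Finset.sum_congr ?_ fun p hp => ?_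
    · ext p
      simp only [Finset.mem_filter]
      constructor
      · rintro ⟨h1, h2, h3⟩
        obtain rfl : cell p = j := by omega
        exact ⟨⟨h1, hj⟩, rfl⟩
      · rintro ⟨⟨h1, -⟩, h3⟩
        exact ⟨h1, by omega, by omega⟩
    · rw [(Finset.mem_filter.1 hp).2, mul_comm]
  rw [h, Real.exp_sum]
  refine Finset.prod_congr rfl fun p _ => ?_
  rw [Real.exp_nat_mul, Real.exp_log (hpos p)]

theorem cell_sums_le (hC : CellStatement) : ∃ t0 : ℕ, ∃ B : ℝ, 0 ≤ B ∧
    (∀ t, t0 ≤ t → ∑ p ∈ cellPrimes t, (p : ℝ)⁻¹ ≤ 1 + Real.exp (-(t : ℝ) / 2)) ∧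
    ∀ t, ∑ p ∈ cellPrimes t, (p : ℝ)⁻¹ ≤ B := by
  obtain ⟨t0, h⟩ := hC
  have h1 : ∀ t, t0 ≤ t → ∑ p ∈ cellPrimes t, (p : ℝ)⁻¹ ≤ 1 + Real.exp (-(t : ℝ) / 2) :=
    fun t ht => by linarith [(abs_le.1 (h t ht)).2]
  have hnn : ∀ t, 0 ≤ ∑ p ∈ cellPrimes t, (p : ℝ)⁻¹ := fun t =>
    Finset.sum_nonneg fun p _ => inv_nonneg.2 (Nat.cast_nonneg _)
  refine ⟨t0, 2 + ∑ t ∈ range t0, ∑ p ∈ cellPrimes t, (p : ℝ)⁻¹,
    by linarith [Finset.sum_nonneg (s := range t0) fun t _ => hnn t], h1, fun t => ?_⟩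
  by_cases ht : t0 ≤ t
  · have : Real.exp (-(t : ℝ) / 2) ≤ 1 := Real.exp_le_one_iff.2
      (by linarith [Nat.cast_nonneg (α := ℝ) t])
    linarith [h1 t ht, Finset.sum_nonneg (s := range t0) fun t _ => hnn t]
  · have := Finset.single_le_sum (f := fun t => ∑ p ∈ cellPrimes t, (p : ℝ)⁻¹)
      (fun t _ => hnn t) (Finset.mem_range.2 (by omega : t < t0))
    linarith

/-- The Euler product over the scales up to `T + 3`. -/
theorem weighted_sum_le {t0 T K : ℕ} {B : ℝ}
    (hcell : ∀ t, t0 ≤ t → ∑ p ∈ cellPrimes t, (p : ℝ)⁻¹ ≤ 1 + Real.exp (-(t : ℝ) / 2))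
    (hall : ∀ t, ∑ p ∈ cellPrimes t, (p : ℝ)⁻¹ ≤ B)
    (hT : 1 ≤ T) (hS : cutoff T ≤ T) (hS0 : t0 + 1 ≤ cutoff T)
    (hexp : (T : ℝ) * Real.exp (-(cutoff T : ℝ) / 2) ≤ 1)
    (hbig : ((K : ℝ) + 1) * ((T : ℝ) + 1) ≤ Real.exp (Real.exp (cutoff T : ℝ)))
    (R : Multiset ℕ) (hR : Multiset.card R ≤ K) (F : Finset ℕ)
    (hF : ∀ v ∈ F, v ≠ 0 ∧ CellsLe v (T + 3)) :
    ∑ v ∈ F, Real.exp (mass R (cutoff T) T v) / v ≤
      Real.exp (∑ j ∈ Ico (cutoff T) T, rowWeight R j + 3 * ((K : ℝ) + 1)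
        + 2 * B * ((cutoff T : ℝ) + 4)) := by
  classical
  set S := cutoff T
  set P := (range (T + 4)).biUnion cellPrimes
  set y := primeWeight R S T with hy
  have hdisj : (↑(range (T + 4)) : Set ℕ).PairwiseDisjoint cellPrimes :=
    fun s _ t _ h => cellPrimes_disjoint h
  have hTpos : (0 : ℝ) < T := by exact_mod_cast hT
  have hcellg : ∀ t : ℕ, ∀ p ∈ cellPrimes t, 0 ≤ y p / p ∧ y p / p < 1 ∧
      y p / p / (1 - y p / p) ≤
        (if t ∈ Ico S T then rowWeight R t * (1 + 1 / (T : ℝ)) else 2) * (p : ℝ)⁻¹ := by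
    intro t p hp
    obtain ⟨hpp, rfl⟩ := mem_cellPrimes.1 hp
    have h2 : (2 : ℝ) ≤ p := by exact_mod_cast hpp.two_le
    simp only [hy, primeWeight]
    split_ifs with ht
    · rw [Finset.mem_Ico] at ht
      have hp' := le_of_le_cell hpp.two_le (by omega : 1 ≤ cell p) le_rfl
      have hmono : Real.exp (Real.exp (S : ℝ)) ≤ Real.exp (Real.exp (cell p : ℝ)) :=
        Real.exp_le_exp.2 (Real.exp_le_exp.2 (by exact_mod_cast ht.1))
      have hc1 := one_le_rowWeight R (cell p)
      have hc2 : rowWeight R (cell p) ≤ (K : ℝ) + 1 :=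
        (rowWeight_le R _).trans (by gcongr)
      set c := rowWeight R (cell p)
      have hcp : c * ((T : ℝ) + 1) ≤ p :=
        ((mul_le_mul_of_nonneg_right hc2 (by positivity)).trans hbig).trans (hmono.trans hp')
      have hlt : c < p := by nlinarith
      refine ⟨by positivity, by rw [div_lt_one (by linarith)]; exact hlt, ?_⟩
      rw [show c / p / (1 - c / p) = c / (p - c) by field_simp,
        show c * (1 + 1 / (T : ℝ)) * (p : ℝ)⁻¹ = c * (((T : ℝ) + 1) / (T * p)) by field_simp]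
      rw [div_eq_mul_inv]
      refine mul_le_mul_of_nonneg_left ?_ (by linarith)
      rw [inv_eq_one_div, div_le_div_iff₀ (by linarith) (by positivity)]
      nlinarith
    · refine ⟨by positivity, by rw [div_lt_one (by linarith)]; linarith, ?_⟩
      rw [show 1 / (p : ℝ) / (1 - 1 / p) = 1 / (p - 1) by field_simp, ← div_eq_mul_inv,
        div_le_div_iff₀ (by linarith) (by linarith)]
      linarith
  have hg : ∀ p ∈ P, 0 ≤ y p / p ∧ y p / p < 1 := fun p hp => by
    obtain ⟨t, -, ht⟩ := Finset.mem_biUnion.1 hp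
    exact ⟨(hcellg t p ht).1, (hcellg t p ht).2.1⟩
  have hPprime : ∀ p ∈ P, p.Prime := fun p hp => by
    obtain ⟨t, -, ht⟩ := Finset.mem_biUnion.1 hp
    exact (mem_cellPrimes.1 ht).1
  have hsub : ∀ v ∈ F, v.primeFactors ⊆ P := fun v hv p hp =>
    Finset.mem_biUnion.2 ⟨cell p, Finset.mem_range.2 (by have := (hF v hv).2 p hp; omega),
      mem_cellPrimes.2 ⟨Nat.prime_of_mem_primeFactors hp, rfl⟩⟩
  calc ∑ v ∈ F, Real.exp (mass R S T v) / v
      = ∑ v ∈ F, ∏ p ∈ P, (y p / p) ^ v.factorization p := Finset.sum_congr rfl fun v hv => by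
        rw [weight_div_eq y P (hF v hv).1 (hsub v hv), hy, prod_primeWeight]
    _ ≤ ∏ p ∈ P, (1 - y p / p)⁻¹ :=
        euler_bound (fun p => y p / p) P hPprime hg F fun v hv => ⟨(hF v hv).1, hsub v hv⟩
    _ ≤ Real.exp (∑ p ∈ P, y p / p / (1 - y p / p)) :=
        prod_inv_one_sub_le_exp _ _ fun p hp => (hg p hp).2
    _ ≤ _ := Real.exp_le_exp.2 ?_
  rw [Finset.sum_biUnion hdisj]
  calc ∑ t ∈ range (T + 4), ∑ p ∈ cellPrimes t, y p / p / (1 - y p / p)
      ≤ ∑ t ∈ range (T + 4),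
          if t ∈ Ico S T then rowWeight R t + 3 * (((K : ℝ) + 1) / T) else 2 * B := by
        refine Finset.sum_le_sum fun t _ => ?_
        refine (Finset.sum_le_sum fun p hp => (hcellg t p hp).2.2).trans ?_
        rw [← Finset.mul_sum]
        split_ifs with ht
        · rw [Finset.mem_Ico] at ht
          have h1 := hcell t (by omega)
          have h2 : Real.exp (-(t : ℝ) / 2) ≤ 1 / T := by
            have h3 : Real.exp (-(t : ℝ) / 2) ≤ Real.exp (-(S : ℝ) / 2) :=
              Real.exp_le_exp.2 (by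
                have : (S : ℝ) ≤ t := by exact_mod_cast ht.1
                linarith)
            rw [le_div_iff₀ hTpos]
            nlinarith
          have hc0 := one_le_rowWeight R t
          have hc1 : rowWeight R t ≤ (K : ℝ) + 1 := (rowWeight_le R t).trans (by gcongr)
          calc rowWeight R t * (1 + 1 / (T : ℝ)) * ∑ p ∈ cellPrimes t, (p : ℝ)⁻¹
              ≤ rowWeight R t * (1 + 1 / (T : ℝ)) * (1 + 1 / (T : ℝ)) := by
                refine mul_le_mul_of_nonneg_left (h1.trans (by linarith)) ?_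
                exact mul_nonneg (by linarith) (by positivity)
            _ ≤ rowWeight R t + rowWeight R t * (3 / T) := by
                have h4 : (1 + 1 / (T : ℝ)) * (1 + 1 / (T : ℝ)) ≤ 1 + 3 / T := by
                  have : 1 / (T : ℝ) * (1 / T) ≤ 1 / T :=
                    mul_le_of_le_one_left (by positivity)
                      (by rw [div_le_one hTpos]; exact_mod_cast hT)
                  linarith [show (3 : ℝ) / T = 3 * (1 / T) by ring]
                rw [mul_assoc]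
                nlinarith
            _ ≤ _ := by
                have : rowWeight R t * (3 / T) ≤ ((K : ℝ) + 1) * (3 / T) :=
                  mul_le_mul_of_nonneg_right hc1 (by positivity)
                linarith [show ((K : ℝ) + 1) * (3 / T) = 3 * (((K : ℝ) + 1) / T) by ring]
        · linarith [hall t]
    _ ≤ _ := by
        rw [Finset.sum_ite]
        have e1 : (range (T + 4)).filter (fun t => t ∈ Ico S T) = Ico S T := by
          ext t
          simp only [Finset.mem_filter, Finset.mem_range, Finset.mem_Ico]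
          omega
        have e2 : ((range (T + 4)).filter fun t => t ∉ Ico S T).card = S + 4 := by
          have := Finset.card_filter_add_card_filter_not (s := range (T + 4))
            (p := fun t => t ∈ Ico S T)
          rw [e1, Nat.card_Ico, Finset.card_range] at this
          omega
        rw [e1, Finset.sum_add_distrib, Finset.sum_const, Finset.sum_const, e2, Nat.card_Ico,
          nsmul_eq_mul, nsmul_eq_mul, Nat.cast_sub hS]
        push_cast
        have : ((T : ℝ) - S) * (3 * (((K : ℝ) + 1) / T)) ≤ (T : ℝ) * (3 * (((K : ℝ) + 1) / T)) :=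
          mul_le_mul_of_nonneg_right (by linarith [Nat.cast_nonneg (α := ℝ) S]) (by positivity)
        have h5 : (T : ℝ) * (3 * (((K : ℝ) + 1) / T)) = 3 * ((K : ℝ) + 1) := by field_simp
        linarith

theorem dev_add_three_le {T : ℕ} (hT : 7 ≤ T) : dev (T + 3) ≤ 2 * (T : ℝ) ^ (3 / 4 : ℝ) := by
  have hT7 : (7 : ℝ) ≤ T := by exact_mod_cast hT
  have h1 : dev (T + 3) ≤ (2 * (T : ℝ)) ^ (3 / 4 : ℝ) :=
    Real.rpow_le_rpow (by positivity) (by push_cast; linarith) (by norm_num)
  rw [Real.mul_rpow (by norm_num) (by linarith)] at h1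
  have h2 : (2 : ℝ) ^ (3 / 4 : ℝ) ≤ 2 ^ (1 : ℝ) :=
    Real.rpow_le_rpow_of_exponent_le (by norm_num) (by norm_num)
  rw [Real.rpow_one] at h2
  nlinarith [Real.rpow_nonneg (by linarith : (0 : ℝ) ≤ T) (3 / 4 : ℝ)]

theorem le_two_eps_mul {T : ℕ} (hT : 1 ≤ T) : (T : ℝ) ^ (7 / 8 : ℝ) ≤ 2 * (eps T * T) := by
  have hT1 : (1 : ℝ) ≤ T := by exact_mod_cast hT
  have h0 : (T : ℝ) ^ (7 / 8 : ℝ) = (T : ℝ) ^ (-(1 : ℝ) / 8) * T := by
    rw [← Real.rpow_add_one (by linarith)]
    norm_num
  rw [h0]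
  have h1 : (2 * (T : ℝ)) ^ (-(1 : ℝ) / 8) ≤ eps T :=
    Real.rpow_le_rpow_of_nonpos (by positivity) (by linarith) (by norm_num)
  rw [Real.mul_rpow (by norm_num) (by linarith)] at h1
  have h2 : (2 : ℝ) ^ (-1 : ℝ) ≤ 2 ^ (-(1 : ℝ) / 8) :=
    Real.rpow_le_rpow_of_exponent_le (by norm_num) (by norm_num)
  rw [Real.rpow_neg_one] at h2
  have h3 : 0 ≤ (T : ℝ) ^ (-(1 : ℝ) / 8) := Real.rpow_nonneg (by linarith) _
  have h4 : (T : ℝ) ^ (-(1 : ℝ) / 8) ≤ 2 * eps T := by nlinarith
  nlinarith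

theorem small_arith {u P K L l d S B W G : ℝ} (hu : 1 ≤ u) (hP : 1 ≤ P) (hK1 : 1 ≤ K)
    (hK : K + 1 ≤ u ^ 3) (hL0 : 0 ≤ L) (hL : L ≤ u) (hl0 : 0 ≤ l) (hl : l ≤ u) (hd0 : 0 ≤ d)
    (hd : d ≤ 2 * P) (hS : S ≤ P) (hB : 0 ≤ B) (hW : 100 * B + 100 ≤ W)
    (hG : u ^ 3 * (u * P) * W ≤ G) :
    K * L + 3 * (K + 1) + 2 * B * (S + 4) + K * (l * (2 * d)) ≤ G / 4 := by
  set Z := u ^ 3 * (u * P) with hZdef
  have hu31 : 1 ≤ u ^ 3 := one_le_pow₀ hu
  have hZ1 : u ^ 3 * u ≤ Z := by
    rw [hZdef]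
    exact mul_le_mul_of_nonneg_left (le_mul_of_one_le_right (by linarith) hP) (by linarith)
  have hZu3 : u ^ 3 ≤ Z := (le_mul_of_one_le_right (by linarith) hu).trans hZ1
  have hZP : P ≤ Z := by
    rw [hZdef]
    exact (le_mul_of_one_le_left (by linarith) hu).trans
      (le_mul_of_one_le_left (mul_nonneg (by linarith) (by linarith)) hu31)
  have e1 : K * L ≤ Z := (mul_le_mul (by linarith) hL hL0 (by linarith)).trans hZ1
  have e2 : K * (l * (2 * d)) ≤ 4 * Z := by
    refine (mul_le_mul (by linarith : K ≤ u ^ 3) (mul_le_mul hl (by linarith : 2 * d ≤ 4 * P)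
      (by linarith) (by linarith)) (mul_nonneg hl0 (by linarith)) (by linarith)).trans_eq ?_
    rw [hZdef]
    ring
  have e3 : B * (S + 4) ≤ B * (5 * Z) := mul_le_mul_of_nonneg_left (by linarith) hB
  have hz0 : 0 ≤ Z := by linarith
  have := (mul_le_mul_of_nonneg_left hW hz0).trans hG
  have hBZ : 0 ≤ B * Z := mul_nonneg hB hz0
  linarith

/-- The error terms are smaller than the slack. -/
theorem eventually_small (B : ℝ) (hB : 0 ≤ B) (t0 : ℕ) : ∃ T0 : ℕ, ∀ T : ℕ, T0 ≤ T →
    1 ≤ T ∧ cutoff T ≤ T ∧ t0 + 1 ≤ cutoff T ∧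
    (T : ℝ) * Real.exp (-(cutoff T : ℝ) / 2) ≤ 1 ∧
    ((Kmax T : ℝ) + 1 + 1) * ((T : ℝ) + 1) ≤ Real.exp (Real.exp (cutoff T : ℝ)) ∧
    ((Kmax T : ℝ) + 1) * Real.log ((T : ℝ) + 5) + 3 * ((Kmax T : ℝ) + 1 + 1)
      + 2 * B * ((cutoff T : ℝ) + 4)
      + ((Kmax T : ℝ) + 1) * (Real.log ((Kmax T : ℝ) + 1 + 1) * (2 * dev (T + 3)))
      ≤ eps T * T / 2 := by
  have hlog : ∀ᶠ x : ℝ in Filter.atTop, Real.log x ≤ (1 / 2) * x ^ (1 / 100 : ℝ) := by
    filter_upwards [(isLittleO_log_rpow_atTop (by norm_num : (0 : ℝ) < 1 / 100)).bound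
      (by norm_num : (0 : ℝ) < 1 / 2), Filter.eventually_ge_atTop (1 : ℝ)] with x hx hx1
    rw [Real.norm_eq_abs, Real.norm_eq_abs, abs_of_nonneg (Real.log_nonneg hx1),
      abs_of_nonneg (Real.rpow_nonneg (by linarith) _)] at hx
    exact hx
  obtain ⟨x0, hx0⟩ := Filter.eventually_atTop.1 hlog
  have hbig : ∀ c : ℝ, ∀ a : ℝ, 0 < a → ∀ᶠ T : ℕ in Filter.atTop, c ≤ (T : ℝ) ^ a := fun c a ha =>
    ((tendsto_rpow_atTop ha).comp tendsto_natCast_atTop_atTop).eventually_ge_atTop c
  obtain ⟨T0, hT0⟩ := Filter.eventually_atTop.1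
    ((Filter.eventually_ge_atTop (⌈x0⌉₊ + 7)).and ((hbig 1003 (1 / 100) (by norm_num)).and
      ((hbig ((t0 : ℝ) + 8) (1 / 4) (by norm_num)).and (hbig (100 * B + 100) (3 / 40) (by norm_num)))))
  refine ⟨T0, fun T hT => ?_⟩
  obtain ⟨h7, hu, hq, hm⟩ := hT0 T hT
  have hT7 : (7 : ℝ) ≤ T := by exact_mod_cast (by omega : 7 ≤ T)
  have hTx : x0 ≤ (T : ℝ) + 5 := by
    have : ((⌈x0⌉₊ : ℕ) : ℝ) ≤ T := by exact_mod_cast (by omega : ⌈x0⌉₊ ≤ T)
    linarith [Nat.le_ceil x0]
  set u := (T : ℝ) ^ (1 / 100 : ℝ) with hudef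
  set L := Real.log ((T : ℝ) + 5) with hLdef
  have hu1 : 1 ≤ u := by linarith
  have hL0 : 0 ≤ L := Real.log_nonneg (by linarith)
  have hL : L ≤ u := by
    refine (hx0 _ hTx).trans ?_
    have h1 : ((T : ℝ) + 5) ^ (1 / 100 : ℝ) ≤ (2 * T) ^ (1 / 100 : ℝ) :=
      Real.rpow_le_rpow (by linarith) (by linarith) (by norm_num)
    rw [Real.mul_rpow (by norm_num) (by linarith)] at h1
    have h2 : (2 : ℝ) ^ (1 / 100 : ℝ) ≤ 2 ^ (1 : ℝ) :=
      Real.rpow_le_rpow_of_exponent_le (by norm_num) (by norm_num)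
    rw [Real.rpow_one] at h2
    nlinarith
  set K := (Kmax T : ℝ) + 1 with hKdef
  have hK1 : 1 ≤ K := by rw [hKdef]; linarith [Nat.cast_nonneg (α := ℝ) (Kmax T)]
  have hK : K + 1 ≤ u ^ 3 := by
    have h1 := Nat.ceil_lt_add_one (by positivity : (0 : ℝ) ≤ 1000 * Real.log ((T : ℝ) + 3) ^ 2)
    have h2 : Real.log ((T : ℝ) + 3) ≤ L := Real.log_le_log (by linarith) (by linarith)
    have h3 : 0 ≤ Real.log ((T : ℝ) + 3) := Real.log_nonneg (by linarith)
    have h4 : Real.log ((T : ℝ) + 3) ^ 2 ≤ u ^ 2 := by nlinarith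
    rw [hKdef, show (Kmax T : ℝ) = ((⌈1000 * Real.log ((T : ℝ) + 3) ^ 2⌉₊ : ℕ) : ℝ) from rfl]
    nlinarith [mul_le_mul_of_nonneg_right hu (sq_nonneg u)]
  have hu3 : u ^ 3 = (T : ℝ) ^ (3 / 100 : ℝ) := by
    rw [hudef, ← Real.rpow_natCast, ← Real.rpow_mul (by linarith)]
    norm_num
  have hu3le : u ^ 3 ≤ T := by
    rw [hu3]
    refine (Real.rpow_le_rpow_of_exponent_le (by linarith) ?_).trans_eq (Real.rpow_one _)
    norm_num
  have hlK : Real.log (K + 1) ≤ u :=
    (Real.log_le_log (by linarith) (by linarith)).trans hL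
  have hlK0 : 0 ≤ Real.log (K + 1) := Real.log_nonneg (by linarith)
  set Q := (T : ℝ) ^ (1 / 4 : ℝ) with hQdef
  set S := (cutoff T : ℝ) with hSdef
  have hsqrt : Real.sqrt T = Q * Q := by
    rw [Real.sqrt_eq_rpow, hQdef, ← Real.rpow_add (by linarith)]
    norm_num
  have hSlo : Q * Q - 1 ≤ S := by
    rw [← hsqrt, hSdef, cutoff]
    linarith [Real.real_sqrt_le_nat_sqrt_succ (a := T)]
  have hShi : S ≤ Q * Q := by rw [← hsqrt, hSdef, cutoff]; exact Real.nat_sqrt_le_real_sqrt
  have huQ : u ≤ Q := Real.rpow_le_rpow_of_exponent_le (by linarith) (by norm_num)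
  have ht0 : (0 : ℝ) ≤ t0 := Nat.cast_nonneg _
  have hS1 : (t0 : ℝ) + 1 ≤ S := by nlinarith
  have hSL : 2 * L ≤ S := by nlinarith
  have hlogT : Real.log T ≤ L := Real.log_le_log (by linarith) (by linarith)
  refine ⟨by omega, Nat.sqrt_le_self _, ?_, ?_, ?_, ?_⟩
  · have : (((t0 + 1 : ℕ)) : ℝ) ≤ (cutoff T : ℝ) := by push_cast; linarith
    exact_mod_cast this
  · rw [← Real.exp_log (by linarith : (0 : ℝ) < T), ← Real.exp_add, Real.exp_le_one_iff]
    linarith
  · have h1 : (K + 1) * ((T : ℝ) + 1) ≤ ((T : ℝ) + 5) * ((T : ℝ) + 5) := by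
      nlinarith [hK.trans hu3le]
    refine h1.trans ?_
    rw [← Real.exp_log (by linarith : (0 : ℝ) < (T : ℝ) + 5), ← Real.exp_add]
    exact Real.exp_le_exp.2 (by linarith [Real.add_one_le_exp S])
  · have hG : u ^ 3 * (u * (T : ℝ) ^ (3 / 4 : ℝ)) * (T : ℝ) ^ (3 / 40 : ℝ) ≤
        (T : ℝ) ^ (7 / 8 : ℝ) := by
      rw [hu3, hudef, ← Real.rpow_add (by linarith), ← Real.rpow_add (by linarith),
        ← Real.rpow_add (by linarith)]
      exact Real.rpow_le_rpow_of_exponent_le (by linarith) (by norm_num)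
    have hQP : Q * Q ≤ (T : ℝ) ^ (3 / 4 : ℝ) := by
      rw [hQdef, ← Real.rpow_add (by linarith)]
      exact Real.rpow_le_rpow_of_exponent_le (by linarith) (by norm_num)
    have := small_arith hu1 (Real.one_le_rpow (by linarith) (by norm_num)) hK1 hK hL0 hL hlK0 hlK
      (dev_nonneg (T + 3)) (dev_add_three_le (by omega)) (hShi.trans hQP) hB hm hG
    linarith [le_two_eps_mul (show 1 ≤ T by omega)]

/-- Heavy numbers are rare. -/
theorem heavy_rare (hC : CellStatement) : ∃ T0 : ℕ, ∀ T : ℕ, T0 ≤ T → ∀ F : Finset ℕ,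
    (∀ v ∈ F, Heavy T v) → invSum F ≤ Real.exp (-(eps T * T) / 2) := by
  classical
  obtain ⟨t0, B, hB, hcell, hall⟩ := cell_sums_le hC
  obtain ⟨T0, hT0⟩ := eventually_small B hB t0
  refine ⟨T0, fun T hT F hF => ?_⟩
  obtain ⟨hT1, hST, hS0, hexp, hbig, hsmall⟩ := hT0 T hT
  set K := Kmax T + 1 with hK
  have hKr : (K : ℝ) = (Kmax T : ℝ) + 1 := by rw [hK]; push_cast; rfl
  have hH : ∀ v ∈ F, ∃ Q : Multiset (ℕ × ℕ), Multiset.card Q ≤ K ∧
      (∀ x ∈ Q, x.1 ≤ T + 3 ∧ Row T x) ∧ (Q.map Prod.snd).prod ∣ v ∧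
      (1 + eps T) * T < gsum (Q.map Prod.fst) (cutoff T) T := fun v hv => (hF v hv).2.2
  choose! Q hQc hQr hQd hQg using hH
  set f := fun v => (Q v).map Prod.fst with hf
  set PS := profiles (range (T + 4)) K with hPS
  have hmaps : ∀ v ∈ F, f v ∈ PS := fun v hv => by
    refine mem_profiles _ ?_ fun t ht => ?_
    · rw [hf, Multiset.card_map]; exact hQc v hv
    · obtain ⟨x, hx, rfl⟩ := Multiset.mem_map.1 ht
      exact Finset.mem_range.2 (by have := (hQr v hv x hx).1; omega)
  set E := 3 * ((K : ℝ) + 1) + 2 * B * ((cutoff T : ℝ) + 4)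
    + (K : ℝ) * (Real.log ((K : ℝ) + 1) * (2 * dev (T + 3))) with hE
  have hclass : ∀ R ∈ PS, ∑ v ∈ F.filter (fun v => f v = R), (v : ℝ)⁻¹ ≤
      Real.exp (-(eps T * T) + E) := by
    intro R _
    rcases (F.filter fun v => f v = R).eq_empty_or_nonempty with h | ⟨v₀, hv₀⟩
    · rw [h, Finset.sum_empty]; positivity
    obtain ⟨hv₀F, hv₀R⟩ := Finset.mem_filter.1 hv₀
    have hcard : Multiset.card R ≤ K := by
      rw [← hv₀R, hf, Multiset.card_map]; exact hQc v₀ hv₀F
    set lam := ∑ j ∈ Ico (cutoff T) T, rowWeight R j + gsum R (cutoff T) T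
      - ((T : ℝ) - cutoff T) - (K : ℝ) * (Real.log ((K : ℝ) + 1) * (2 * dev (T + 3))) with hlam
    have hmass : ∀ v ∈ F.filter (fun v => f v = R), lam ≤ mass R (cutoff T) T v := by
      intro v hv
      obtain ⟨hvF, hvR⟩ := Finset.mem_filter.1 hv
      have h1 := mass_ge (Q v) hST (hF v hvF).1 (fun x hx => (hQr v hvF x hx).2) (hQd v hvF)
      change f v = R at hvR
      simp only [hf] at hvR
      rw [hvR] at h1
      refine le_trans ?_ h1
      have hc : (Multiset.card (Q v) : ℝ) ≤ K := by exact_mod_cast hQc v hvF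
      have hc0 : (0 : ℝ) ≤ Multiset.card (Q v) := Nat.cast_nonneg _
      have h2 : Real.log ((Multiset.card (Q v) : ℝ) + 1) ≤ Real.log ((K : ℝ) + 1) :=
        Real.log_le_log (by linarith) (by linarith)
      have hd := dev_nonneg (T + 3)
      rw [hlam]
      have : (Multiset.card (Q v) : ℝ) * (Real.log ((Multiset.card (Q v) : ℝ) + 1) * (2 * dev (T + 3)))
          ≤ (K : ℝ) * (Real.log ((K : ℝ) + 1) * (2 * dev (T + 3))) :=
        mul_le_mul hc (mul_le_mul_of_nonneg_right h2 (by linarith))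
          (mul_nonneg (Real.log_nonneg (by linarith)) (by linarith)) (Nat.cast_nonneg _)
      linarith
    calc ∑ v ∈ F.filter (fun v => f v = R), (v : ℝ)⁻¹
        ≤ ∑ v ∈ F.filter (fun v => f v = R),
            Real.exp (-lam) * (Real.exp (mass R (cutoff T) T v) / v) := by
          refine Finset.sum_le_sum fun v hv => ?_
          rw [← mul_div_assoc, ← Real.exp_add, div_eq_mul_inv]
          refine le_mul_of_one_le_left (by positivity) (Real.one_le_exp ?_)
          linarith [hmass v hv]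
      _ ≤ Real.exp (-lam) * Real.exp (∑ j ∈ Ico (cutoff T) T, rowWeight R j + 3 * ((K : ℝ) + 1)
            + 2 * B * ((cutoff T : ℝ) + 4)) := by
          rw [← Finset.mul_sum]
          refine mul_le_mul_of_nonneg_left (weighted_sum_le hcell hall hT1 hST hS0 hexp
            (by rw [hKr]; exact hbig) R hcard _ fun v hv => ?_) (Real.exp_pos _).le
          exact ⟨(hF v (Finset.mem_filter.1 hv).1).1, (hF v (Finset.mem_filter.1 hv).1).2.1⟩
      _ ≤ _ := by
          rw [← Real.exp_add]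
          refine Real.exp_le_exp.2 ?_
          have hg := hQg v₀ hv₀F
          change f v₀ = R at hv₀R
          simp only [hf] at hv₀R
          rw [hv₀R] at hg
          rw [hlam, hE]
          linarith [Nat.cast_nonneg (α := ℝ) (cutoff T)]
  have hcount : (PS.card : ℝ) ≤ Real.exp ((K : ℝ) * Real.log ((T : ℝ) + 5)) := by
    rw [Real.exp_nat_mul, Real.exp_log (by positivity)]
    have := card_profiles (range (T + 4)) K
    rw [Finset.card_range] at this
    exact_mod_cast this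
  calc invSum F = ∑ R ∈ PS, ∑ v ∈ F.filter (fun v => f v = R), (v : ℝ)⁻¹ :=
        (Finset.sum_fiberwise_of_maps_to hmaps _).symm
    _ ≤ PS.card • Real.exp (-(eps T * T) + E) := Finset.sum_le_card_nsmul _ _ _ hclass
    _ ≤ Real.exp ((K : ℝ) * Real.log ((T : ℝ) + 5)) * Real.exp (-(eps T * T) + E) := by
        rw [nsmul_eq_mul]
        exact mul_le_mul_of_nonneg_right hcount (Real.exp_pos _).le
    _ ≤ _ := by
        rw [← Real.exp_add]
        refine Real.exp_le_exp.2 ?_
        rw [hE, hKr]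
        linarith

end P031
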